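import Vale.Agent.P061.Lemmas

namespace Vale.Agent.Results.P061.ConstantAtLeastFour

open Vale.Agent.P061

theorem result : ∀ C : ℝ, StrongThinTree C → 4 ≤ C := four_le

end Vale.Agent.Results.P061.ConstantAtLeastFour
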